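import Vale.Agent.P366.H353.D.L10a
import Vale.Agent.P366.H474.D.Mu

/-! The dominant energy condition of the initial data and the Einstein tensor. -/

open MeasureTheory Metric Filter Topology Set
open scoped ContDiff

noncomputable section
namespace Vale.Agent.P366.GC
open Vale.Agent.P366.Stmt Vale.Agent.P366.T2
open Vale.Agent.P366.H896 (CR)
open Vale.Agent.P366.Kerr (pt tng con indG indK lapse ein ric)

variable {n : ℕ} {G : Stmt.Field (n + 1)} {f : E n → ℝ} {U : Set (E (n + 1))} {W : Set (E n)}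
  {y : E n}

lemma ein_contr (G : Stmt.Field (n + 1)) (p : E (n + 1)) (X Z : Fin (n + 1) → ℝ) :
    ∑ a, ∑ b, ein G a b p * X a * Z b = ∑ b, (∑ a, ein G a b p * X a) * Z b := by
  simp only [Finset.sum_mul]
  exact Finset.sum_comm

/-- `|J| ≤ μ` in terms of the covector `ein(N, .)` -/
lemma dec_cov (hS : Sl G f U W) (hy : y ∈ W)
    (hD : Stmt.covNorm (indG G f) (Stmt.mom (indG G f) (indK G f)) y ≤
      Stmt.mu (indG G f) (indK G f) y) :
    √(∑ k, ∑ l, (Stmt.mat (indG G f) y)⁻¹ k l *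
        (∑ b, (∑ a, ein G a b (pt (f y) y) * Nv G f a y) * Tv f k b y) *
        (∑ b, (∑ a, ein G a b (pt (f y) y) * Nv G f a y) * Tv f l b y)) ≤
      ∑ b, (∑ a, ein G a b (pt (f y) y) * Nv G f a y) * Nv G f b y := by
  have h1 : ∀ j, ∑ b, (∑ a, ein G a b (pt (f y) y) * Nv G f a y) * Tv f j b y =
      Stmt.mom (indG G f) (indK G f) j y := by
    intro j
    rw [mom_ein hS hy j, ← ein_contr G (pt (f y) y) (fun a => Nv G f a y) fun b => Tv f j b y]
  simp only [h1]
  rw [← ein_contr G (pt (f y) y) (fun a => Nv G f a y) fun b => Nv G f b y, ← mu_eq hS hy]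
  exact hD

theorem dec_pos (hS : Sl G f U W) (hy : y ∈ W) (hpd : (Stmt.mat (indG G f) y).PosDef)
    (hD : Stmt.covNorm (indG G f) (Stmt.mom (indG G f) (indK G f)) y ≤ Stmt.mu (indG G f) (indK G f) y)
    {Z : Fin (n + 1) → ℝ} (hZ : ∑ a, ∑ b, G (pt (f y) y) a b * Z a * Z b ≤ 0)
    (hf : ∑ a, ∑ b, G (pt (f y) y) a b * Nv G f a y * Z b ≤ 0) :
    0 ≤ ∑ a, ∑ b, ein G a b (pt (f y) y) * Nv G f a y * Z b := by
  rw [ein_contr G (pt (f y) y) (fun a => Nv G f a y)]
  exact H353.DA.dec_alg (T := fun k a => Tv f k a y) (N := fun a => Nv G f a y)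
    (Gi := fun a b => Stmt.up G a b (pt (f y) y)) (G := fun a b => G (pt (f y) y) a b)
    hpd.inv.posSemidef (fun a b => hS.met.up_g (hS.map y hy) a b) (fun a b => up_dec hS hy a b)
    _ (dec_cov hS hy hD) hZ hf

/-- If the Einstein tensor vanishes on the normal and one timelike vector, then it vanishes on
the normal. -/
theorem dec_zero (hS : Sl G f U W) (hy : y ∈ W) (hpd : (Stmt.mat (indG G f) y).PosDef)
    (hD : Stmt.covNorm (indG G f) (Stmt.mom (indG G f) (indK G f)) y ≤ Stmt.mu (indG G f) (indK G f) y)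
    {Z : Fin (n + 1) → ℝ} (hZ : ∑ a, ∑ b, G (pt (f y) y) a b * Z a * Z b < 0)
    (hf : ∑ a, ∑ b, G (pt (f y) y) a b * Nv G f a y * Z b ≤ 0)
    (h0 : ∑ a, ∑ b, ein G a b (pt (f y) y) * Nv G f a y * Z b = 0) (b : Fin (n + 1)) :
    ∑ a, ein G a b (pt (f y) y) * Nv G f a y = 0 := by
  rw [ein_contr G (pt (f y) y) (fun a => Nv G f a y)] at h0
  exact H353.DA.dec_alg_zero (T := fun k a => Tv f k a y) (N := fun a => Nv G f a y)
    (Gi := fun a b => Stmt.up G a b (pt (f y) y)) (G := fun a b => G (pt (f y) y) a b)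
    hpd.inv.posSemidef (fun a b => hS.met.up_g (hS.map y hy) a b) (fun a b => up_dec hS hy a b)
    _ (dec_cov hS hy hD) hZ hf h0 b

end Vale.Agent.P366.GC
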