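import Vale.Agent.P366.H896.D.Defs

/-! The dominant energy condition of the initial data: algebra. -/

open MeasureTheory Metric Filter Topology Set
open scoped ContDiff

noncomputable section
namespace Vale.Agent.P366.H353.DA

/-- the inequality of Cauchy and Schwarz for a positive semidefinite form -/
lemma psd_cs {m : ℕ} {M : Matrix (Fin m) (Fin m) ℝ} (hM : M.PosSemidef) (u v : Fin m → ℝ) :
    (∑ i, ∑ j, M i j * u i * v j) ^ 2 ≤
      (∑ i, ∑ j, M i j * u i * u j) * (∑ i, ∑ j, M i j * v i * v j) := by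
  have hs : ∀ i j, M i j = M j i := fun i j => by
    have := hM.1.apply i j
    simpa using this.symm
  have hq : ∀ w : Fin m → ℝ, 0 ≤ ∑ i, ∑ j, M i j * w i * w j := by
    intro w
    have h1 := hM.dotProduct_mulVec_nonneg w
    have e1 : star w ⬝ᵥ M.mulVec w = ∑ i, ∑ j, M i j * w i * w j := by
      simp only [dotProduct, Matrix.mulVec, star_trivial, Finset.mul_sum]
      exact Finset.sum_congr rfl fun i _ => Finset.sum_congr rfl fun j _ => by ring
    rw [← e1]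
    exact h1
  have hsym : ∑ i, ∑ j, M i j * v i * u j = ∑ i, ∑ j, M i j * u i * v j := by
    rw [Finset.sum_comm]
    exact Finset.sum_congr rfl fun i _ => Finset.sum_congr rfl fun j _ => by
      rw [hs j i]; ring
  have h : ∀ x : ℝ, 0 ≤ (∑ i, ∑ j, M i j * u i * u j) * (x * x) +
      (2 * ∑ i, ∑ j, M i j * u i * v j) * x + ∑ i, ∑ j, M i j * v i * v j := by
    intro x
    have h1 := hq fun i => x * u i + v i
    have e1 : ∑ i, ∑ j, M i j * (x * u i + v i) * (x * u j + v j) =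
        (∑ i, ∑ j, M i j * u i * u j) * (x * x) + (∑ i, ∑ j, M i j * u i * v j) * x +
        (∑ i, ∑ j, M i j * v i * u j) * x + ∑ i, ∑ j, M i j * v i * v j := by
      simp only [Finset.sum_mul, ← Finset.sum_add_distrib]
      exact Finset.sum_congr rfl fun i _ => Finset.sum_congr rfl fun j _ => by ring
    rw [e1, hsym] at h1
    linarith
  have hd := discrim_le_zero h
  unfold discrim at hd
  linarith

/-- the same inequality in terms of bounds -/
lemma psd_cs_ge {m : ℕ} {M : Matrix (Fin m) (Fin m) ℝ} (hM : M.PosSemidef) (u v : Fin m → ℝ)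
    {s t : ℝ} (hs : 0 ≤ s) (ht : 0 ≤ t) (hu : ∑ i, ∑ j, M i j * u i * u j ≤ s ^ 2)
    (hv : ∑ i, ∑ j, M i j * v i * v j ≤ t ^ 2) : -(s * t) ≤ ∑ i, ∑ j, M i j * u i * v j := by
  have h1 := psd_cs hM u v
  have hv0 : 0 ≤ ∑ i, ∑ j, M i j * v i * v j := by
    have h1 := hM.dotProduct_mulVec_nonneg v
    have e1 : star v ⬝ᵥ M.mulVec v = ∑ i, ∑ j, M i j * v i * v j := by
      simp only [dotProduct, Matrix.mulVec, star_trivial, Finset.mul_sum]
      exact Finset.sum_congr rfl fun i _ => Finset.sum_congr rfl fun j _ => by ring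
    rw [← e1]
    exact h1
  have h2 : (∑ i, ∑ j, M i j * u i * v j) ^ 2 ≤ (s * t) ^ 2 := by
    rw [mul_pow]
    exact h1.trans (mul_le_mul hu hv hv0 (by positivity))
  exact (abs_le.1 (abs_le_of_sq_le_sq h2 (by positivity))).1

/-- contraction of a covector with a vector in the frame `T`, `N` -/
lemma frame_contr {n : ℕ} {G Gi : Fin (n + 1) → Fin (n + 1) → ℝ} {T : Fin n → Fin (n + 1) → ℝ}
    {N : Fin (n + 1) → ℝ} {hi : Matrix (Fin n) (Fin n) ℝ}
    (hG : ∀ a b, ∑ c, Gi a c * G c b = if a = b then 1 else 0)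
    (hGi : ∀ a b, Gi a b = ∑ k, ∑ l, hi k l * T k a * T l b - N a * N b)
    (w Z : Fin (n + 1) → ℝ) : ∑ a, w a * Z a =
      ∑ k, ∑ l, hi k l * (∑ a, w a * T k a) * (∑ a, (∑ b, G a b * Z b) * T l a) -
        (∑ a, w a * N a) * (∑ a, (∑ b, G a b * Z b) * N a) := by
  set ζ : Fin (n + 1) → ℝ := fun a => ∑ b, G a b * Z b with hζ
  have hζa : ∀ a, (∑ b, G a b * Z b) = ζ a := fun _ => rfl
  simp only [hζa]
  have e0 : ∀ a, Z a = ∑ b, Gi a b * ζ b := by
    intro a
    have e1 : ∑ b, Gi a b * ζ b = ∑ c, (∑ b, Gi a b * G b c) * Z c := by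
      simp only [hζ, Finset.mul_sum, Finset.sum_mul]
      rw [Finset.sum_comm]
      exact Finset.sum_congr rfl fun i _ => Finset.sum_congr rfl fun j _ => by ring
    rw [e1]
    simp [hG]
  have a1 : ∑ a, w a * Z a = ∑ a, ∑ b, w a * (Gi a b * ζ b) := by
    refine Finset.sum_congr rfl fun a _ => ?_
    rw [← Finset.mul_sum, ← e0 a]
  have a2 : ∑ a, ∑ b, w a * (Gi a b * ζ b) =
      ∑ a, ∑ b, ∑ k, ∑ l, hi k l * (w a * T k a) * (ζ b * T l b) -
        ∑ a, ∑ b, (w a * N a) * (ζ b * N b) := by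
    rw [← Finset.sum_sub_distrib]
    refine Finset.sum_congr rfl fun a _ => ?_
    rw [← Finset.sum_sub_distrib]
    refine Finset.sum_congr rfl fun b _ => ?_
    rw [hGi a b, sub_mul, mul_sub, Finset.sum_mul, Finset.mul_sum]
    congr 1
    · refine Finset.sum_congr rfl fun k _ => ?_
      rw [Finset.sum_mul, Finset.mul_sum]
      exact Finset.sum_congr rfl fun l _ => by ring
    · ring
  have a3 : ∑ a, ∑ b, ∑ k, ∑ l, hi k l * (w a * T k a) * (ζ b * T l b) =
      ∑ k, ∑ l, hi k l * (∑ a, w a * T k a) * (∑ a, ζ a * T l a) := by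
    have b1 : ∀ k l, hi k l * (∑ a, w a * T k a) * (∑ a, ζ a * T l a) =
        ∑ a, ∑ b, hi k l * (w a * T k a) * (ζ b * T l b) := by
      intro k l
      rw [mul_assoc, Finset.sum_mul_sum, Finset.mul_sum]
      refine Finset.sum_congr rfl fun a _ => ?_
      rw [Finset.mul_sum]
      exact Finset.sum_congr rfl fun b _ => by ring
    simp only [b1]
    rw [Finset.sum_comm]
    calc ∑ b, ∑ a, ∑ k, ∑ l, hi k l * (w a * T k a) * (ζ b * T l b)
        = ∑ b, ∑ k, ∑ a, ∑ l, hi k l * (w a * T k a) * (ζ b * T l b) :=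
          Finset.sum_congr rfl fun b _ => Finset.sum_comm
      _ = ∑ k, ∑ b, ∑ a, ∑ l, hi k l * (w a * T k a) * (ζ b * T l b) := Finset.sum_comm
      _ = ∑ k, ∑ b, ∑ l, ∑ a, hi k l * (w a * T k a) * (ζ b * T l b) :=
          Finset.sum_congr rfl fun k _ => Finset.sum_congr rfl fun b _ => Finset.sum_comm
      _ = ∑ k, ∑ l, ∑ b, ∑ a, hi k l * (w a * T k a) * (ζ b * T l b) :=
          Finset.sum_congr rfl fun k _ => Finset.sum_comm
      _ = ∑ k, ∑ l, ∑ a, ∑ b, hi k l * (w a * T k a) * (ζ b * T l b) :=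
          Finset.sum_congr rfl fun k _ => Finset.sum_congr rfl fun l _ => Finset.sum_comm
  rw [a1, a2, a3, Finset.sum_mul_sum]

section
variable {n : ℕ} {G Gi : Fin (n + 1) → Fin (n + 1) → ℝ} {T : Fin n → Fin (n + 1) → ℝ}
  {N : Fin (n + 1) → ℝ} {hi : Matrix (Fin n) (Fin n) ℝ}

lemma low_N (N Z : Fin (n + 1) → ℝ) :
    ∑ a, ∑ b, G a b * N a * Z b = ∑ a, (∑ b, G a b * Z b) * N a := by
  simp only [Finset.sum_mul]
  exact Finset.sum_congr rfl fun i _ => Finset.sum_congr rfl fun j _ => by ring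

/-- The algebra of the dominant energy condition: if the inverse metric is
`∑ h^{kl} T_k T_l - N N` and the covector `x` satisfies `|x(T)| ≤ x(N)`, then `0 ≤ x(Z)` for
future causal `Z`. -/
theorem dec_alg (hp : hi.PosSemidef)
    (hG : ∀ a b, ∑ c, Gi a c * G c b = if a = b then 1 else 0)
    (hGi : ∀ a b, Gi a b = ∑ k, ∑ l, hi k l * T k a * T l b - N a * N b)
    (x : Fin (n + 1) → ℝ)
    (hx : √(∑ k, ∑ l, hi k l * (∑ a, x a * T k a) * (∑ a, x a * T l a)) ≤ ∑ a, x a * N a)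
    {Z : Fin (n + 1) → ℝ} (hZ : ∑ a, ∑ b, G a b * Z a * Z b ≤ 0)
    (hf : ∑ a, ∑ b, G a b * N a * Z b ≤ 0) : 0 ≤ ∑ a, x a * Z a := by
  rw [low_N, frame_contr hG hGi] at hZ
  rw [low_N] at hf
  have hm : 0 ≤ ∑ a, x a * N a := (Real.sqrt_nonneg _).trans hx
  have hJ : ∑ k, ∑ l, hi k l * (∑ a, x a * T k a) * (∑ a, x a * T l a) ≤
      (∑ a, x a * N a) ^ 2 := (Real.sqrt_le_left hm).1 hx
  have hB : ∑ k, ∑ l, hi k l * (∑ a, (∑ b, G a b * Z b) * T k a) *
      (∑ a, (∑ b, G a b * Z b) * T l a) ≤ (-∑ a, (∑ b, G a b * Z b) * N a) ^ 2 := by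
    rw [neg_sq]
    nlinarith [hZ]
  have h1 := psd_cs_ge hp (fun k => ∑ a, x a * T k a)
    (fun l => ∑ a, (∑ b, G a b * Z b) * T l a) hm
    (by linarith : 0 ≤ -∑ a, (∑ b, G a b * Z b) * N a) hJ hB
  rw [frame_contr hG hGi x Z]
  linarith

/-- If moreover `Z` is timelike and `x(Z) = 0` then `x = 0`. -/
theorem dec_alg_zero (hp : hi.PosSemidef)
    (hG : ∀ a b, ∑ c, Gi a c * G c b = if a = b then 1 else 0)
    (hGi : ∀ a b, Gi a b = ∑ k, ∑ l, hi k l * T k a * T l b - N a * N b)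
    (x : Fin (n + 1) → ℝ)
    (hx : √(∑ k, ∑ l, hi k l * (∑ a, x a * T k a) * (∑ a, x a * T l a)) ≤ ∑ a, x a * N a)
    {Z : Fin (n + 1) → ℝ} (hZ : ∑ a, ∑ b, G a b * Z a * Z b < 0)
    (hf : ∑ a, ∑ b, G a b * N a * Z b ≤ 0) (h0 : ∑ a, x a * Z a = 0) (a : Fin (n + 1)) :
    x a = 0 := by
  rw [low_N, frame_contr hG hGi] at hZ
  rw [low_N] at hf
  have hm : 0 ≤ ∑ a, x a * N a := (Real.sqrt_nonneg _).trans hx
  have hJ : ∑ k, ∑ l, hi k l * (∑ a, x a * T k a) * (∑ a, x a * T l a) ≤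
      (∑ a, x a * N a) ^ 2 := (Real.sqrt_le_left hm).1 hx
  set β : ℝ := ∑ k, ∑ l, hi k l * (∑ a, (∑ b, G a b * Z b) * T k a) *
      (∑ a, (∑ b, G a b * Z b) * T l a) with hβ
  set ν : ℝ := ∑ a, (∑ b, G a b * Z b) * N a with hν
  have hβ0 : β ≤ √β ^ 2 := by
    rcases le_or_gt 0 β with h | h
    · rw [Real.sq_sqrt h]
    · exact h.le.trans (sq_nonneg _)
  have hsb : √β < -ν := by
    have h1 : β < (-ν) ^ 2 := by rw [neg_sq]; nlinarith [hZ]
    have h2 : 0 < -ν ∨ -ν = 0 := by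
      rcases (by linarith : (0:ℝ) ≤ -ν).lt_or_eq with h | h
      · exact Or.inl h
      · exact Or.inr h.symm
    rcases h2 with h2 | h2
    · exact (Real.sqrt_lt' h2).2 h1
    · exfalso
      rw [h2] at h1
      have h3 := psd_cs_ge hp (fun k => ∑ a, (∑ b, G a b * Z b) * T k a)
        (fun l => ∑ a, (∑ b, G a b * Z b) * T l a) (le_refl (0 : ℝ)) (le_refl (0 : ℝ))
        (by rw [← hβ]; linarith) (by rw [← hβ]; linarith)
      rw [← hβ] at h3
      norm_num at h3 h1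
      linarith
  have h1 := psd_cs_ge hp (fun k => ∑ a, x a * T k a)
    (fun l => ∑ a, (∑ b, G a b * Z b) * T l a) hm (Real.sqrt_nonneg β) hJ hβ0
  rw [frame_contr hG hGi x Z, ← hν] at h0
  have h2 : (∑ a, x a * N a) * (-ν - √β) ≤ 0 := by nlinarith
  have h3 : ∑ a, x a * N a = 0 := by
    refine le_antisymm ?_ hm
    by_contra h
    push Not at h
    have := mul_pos h (by linarith : 0 < -ν - √β)
    linarith
  -- hence `x` vanishes on every vector
  have h4 : ∀ w : Fin (n + 1) → ℝ, ∑ a, x a * w a = 0 := by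
    intro w
    rw [frame_contr hG hGi x w, h3, zero_mul, sub_zero]
    have c1 := psd_cs hp (fun k => ∑ a, x a * T k a) (fun l => ∑ a, (∑ b, G a b * w b) * T l a)
    have c2 : ∑ k, ∑ l, hi k l * (∑ a, x a * T k a) * (∑ a, x a * T l a) ≤ 0 := by
      rw [h3] at hJ
      simpa using hJ
    have c3 := psd_cs_ge hp (fun k => ∑ a, x a * T k a) (fun l => ∑ a, x a * T l a)
      (le_refl (0 : ℝ)) (le_refl (0 : ℝ)) (by linarith) (by linarith)
    have c4 : ∑ k, ∑ l, hi k l * (∑ a, x a * T k a) * (∑ a, x a * T l a) = 0 := by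
      refine le_antisymm c2 ?_
      norm_num at c3
      exact c3
    rw [c4, zero_mul] at c1
    exact pow_eq_zero_iff (two_ne_zero) |>.1 (le_antisymm c1 (sq_nonneg _))
  have h5 := h4 (fun b => if b = a then 1 else 0)
  simpa using h5

end

end Vale.Agent.P366.H353.DA
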